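import Vale.Agent.P011UHB.Defs
import Vale.Agent.P011UG.Abs
import Vale.Agent.P011UP.Std
import Vale.Agent.P011UGL.Cox

/-!
Abstract buildings: residues, gates, double cosets.
-/

set_option autoImplicit false
set_option linter.all false

namespace Vale.Agent.P011UBS

open Matrix Vale.Agent.P183CH Vale.Agent.P011U Vale.Agent.P011UHB Vale.Agent.P011UGL
open Vale.Agent.P011UC (pa)

variable {R : RS} {J K J' : Set (Fin R.r)} {a b e e' g u u' v w : R.Aut} {γ : R.Q} {i j : Fin R.r}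
  {π ρ : Equiv.Perm (Fin R.r)}

theorem exists_least {A : Type} (P : A → Prop) (f : A → ℕ) (h : ∃ a, P a) :
    ∃ a, P a ∧ ∀ b, P b → f a ≤ f b := by
  obtain ⟨a, h1, h2⟩ := (InvImage.wf f wellFounded_lt).has_min {a | P a} h
  exact ⟨a, h1, fun b hb => not_lt.1 (h2 b hb)⟩

theorem pa_α (i : Fin R.r) : pa R π (R.α i) = R.α (π i) := P011UG.pq_α i

theorem pa_nonneg : 0 ≤ pa R π γ ↔ 0 ≤ γ := P011UG.pq_nonneg

theorem pa_nonpos : pa R π γ ≤ 0 ↔ γ ≤ 0 := P011UG.pq_nonpos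

theorem pa_one : pa R 1 = 1 := rfl

theorem pa_mul (π ρ : Equiv.Perm (Fin R.r)) : pa R (π * ρ) = pa R π * pa R ρ := rfl

theorem pa_inv (π : Equiv.Perm (Fin R.r)) : pa R π⁻¹ = (pa R π)⁻¹ := rfl

theorem pa_inv_α (i : Fin R.r) : (pa R π)⁻¹ (R.α (π i)) = R.α i := by rw [← pa_α, RS.inv_app]

theorem pa_conj_α (w : R.Aut) (i : Fin R.r) :
    (pa R π * w * (pa R π)⁻¹) (R.α (π i)) = pa R π (w (R.α i)) := by
  rw [RS.mul_app, RS.mul_app, pa_inv_α]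

theorem Dg_inv (h : Dg R π) : Dg R π⁻¹ := fun i j => by rw [← h]; simp

theorem WJ_mono (h : J ⊆ K) : R.WJ J ≤ R.WJ K := Subgroup.closure_mono (Set.image_mono h)

theorem In_mono (h : J ⊆ K) (h' : R.In J γ) : R.In K γ := fun i c => h' i fun e => c (h e)

theorem In_map (h : ∀ j ∈ J, R.In K (g (R.α j))) (h' : R.In J γ) : R.In K (g γ) := fun i hi => by
  rw [RS.map_eq, Finset.sum_apply]
  refine Finset.sum_eq_zero fun j _ => ?_
  by_cases c : j ∈ J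
  · rw [Pi.smul_apply, h j c i hi, smul_zero]
  · rw [h' j c, zero_smul, Pi.zero_apply]

theorem conj_WJ (h : ∀ j ∈ J, g * R.sE j * g⁻¹ ∈ R.WJ K) (hu : u ∈ R.WJ J) :
    g * u * g⁻¹ ∈ R.WJ K :=
  (Subgroup.closure_le ((R.WJ K).comap (MulAut.conj g).toMonoidHom)).2
    (by rintro _ ⟨j, hj, rfl⟩; exact h j hj) hu

/-- the nodes in `K` which come from nodes in `J` -/
def Im (K J : Set (Fin R.r)) (e : R.Aut) : Set (Fin R.r) :=
  {k | k ∈ K ∧ ∃ j ∈ J, e (R.α j) = R.α k}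

theorem Im_card : (Im K J e).ncard ≤ (Im J K e⁻¹).ncard := by
  have : ∀ k, ∃ j, k ∈ Im K J e → j ∈ J ∧ e (R.α j) = R.α k := fun k => by
    by_cases c : k ∈ Im K J e
    · exact let ⟨j, h⟩ := c.2; ⟨j, fun _ => h⟩
    · exact ⟨k, fun h => absurd h c⟩
  choose f hf using this
  exact Set.ncard_le_ncard_of_injOn f (fun k h => ⟨(hf k h).1, k, h.1, by
    rw [← (hf k h).2, RS.inv_app]⟩) fun k h k' h' c => RS.α_inj (by
      rw [← (hf k h).2, c, (hf k' h').2])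

variable (hR : R.Ok)
include hR

theorem pa_sE (h : Dg R π) (i : Fin R.r) : pa R π * R.sE i * (pa R π)⁻¹ = R.sE (π i) :=
  P011UG.pq_sE hR h i

theorem pa_mem (h : Dg R π) (hγ : γ ∈ R.Φ) : pa R π γ ∈ R.Φ := P011UP.pm_mem hR h γ hγ

theorem pa_WJ (h : Dg R π) (h' : ∀ j ∈ J, π j ∈ K) (hu : u ∈ R.WJ J) :
    pa R π * u * (pa R π)⁻¹ ∈ R.WJ K :=
  conj_WJ (fun j hj => pa_sE hR h j ▸ RS.sE_mem (h' j hj)) hu

theorem len_mul_pa (h : Dg R π) (w : R.Aut) : R.len (w * pa R π) = R.len w :=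
  Set.ncard_congr (fun γ _ => pa R π γ) (fun γ c => ⟨pa_mem hR h c.1, pa_nonneg.2 c.2.1, c.2.2⟩)
    (fun _ _ _ _ c => (pa R π).injective c) fun γ c => ⟨pa R π⁻¹ γ, ⟨pa_mem hR (Dg_inv h) c.1,
      pa_nonneg.2 c.2.1, by rw [pa_inv, RS.mul_app, RS.app_inv]; exact c.2.2⟩, RS.app_inv _ _⟩

omit hR in
theorem len_pa_mul (w : R.Aut) : R.len (pa R π * w) = R.len w :=
  congrArg Set.ncard (Set.ext fun γ => and_congr_right fun _ => and_congr_right fun _ => pa_nonpos)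

theorem len_mul_le (ha : a ∈ R.W) (hb : b ∈ R.W) : R.len (a * b) ≤ R.len a + R.len b := by
  have := hR.len_mul ha hb
  rw [hR.len_inv hb] at this
  omega

theorem len_pos_mul (ha : a ∈ R.W) (h : 0 ≤ a⁻¹ (R.α i)) : R.len (R.sE i * a) = R.len a + 1 := by
  rw [← hR.len_inv (mul_mem (RS.sE_mem_W i) ha), _root_.mul_inv_rev, hR.sE_inv,
    hR.len_mul_pos (inv_mem ha) h, hR.len_inv ha]

theorem len_neg_mul (ha : a ∈ R.W) (h : a⁻¹ (R.α i) ≤ 0) : R.len (R.sE i * a) + 1 = R.len a := by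
  rw [← hR.len_inv (mul_mem (RS.sE_mem_W i) ha), _root_.mul_inv_rev, hR.sE_inv,
    hR.len_mul_neg (inv_mem ha) h, hR.len_inv ha]

theorem len_red (hv : v ∈ R.W) (h : ∀ j ∈ K, 0 ≤ v (R.α j)) (hu : u ∈ R.WJ K) :
    R.len (v * u) = R.len v + R.len u :=
  hR.len_of_disj hv (RS.WJ_le K hu) (Set.disjoint_left.2 fun γ c c' =>
    hR.not_both (hR.map_mem hv c.1) (map_nonneg h c.2.1 (hR.Inv_sub (inv_mem hu) c').2.2) c.2.2)

theorem red_left (hv : v ∈ R.W) (h : ∀ j ∈ K, 0 ≤ v (R.α j)) (hu : u ∈ R.WJ K)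
    (h' : 0 ≤ (v * u)⁻¹ (R.α i)) : 0 ≤ v⁻¹ (R.α i) :=
  (hR.sign' (inv_mem hv) (hR.simple i)).resolve_right fun c => by
    have m := hR.neg_mem (hR.map_mem (inv_mem hv) (hR.simple i))
    have := map_nonneg h (neg_nonneg.2 c) (hR.Inv_sub (inv_mem hu) ⟨m, neg_nonneg.2 c, by
      rw [map_neg, neg_nonpos, ← RS.mul_app, ← _root_.mul_inv_rev]; exact h'⟩).2.2
    rw [map_neg, RS.app_inv, neg_nonneg] at this
    exact hR.not_both (hR.simple i) (RS.α_nonneg i) this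

theorem simple_of (he : e ∈ R.W) (h : ∀ j ∈ J, 0 ≤ e (R.α j)) (hγ : γ ∈ R.PJ J)
    (c : e γ = R.α i) : ∃ j ∈ J, γ = R.α j := by
  obtain ⟨j, hj⟩ := hR.eq_α_of_ht ⟨hγ.1, hγ.2.1⟩ (by
    have h3 : R.ht (∑ j, γ j • e (R.α j)) = ∑ j, γ j * R.ht (e (R.α j)) := by
      simp only [RS.ht, Finset.sum_apply, Finset.mul_sum, Pi.smul_apply, smul_eq_mul]
      exact Finset.sum_comm
    rw [← RS.ht_α i, ← c, RS.map_eq, h3]
    refine Finset.sum_le_sum fun j _ => ?_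
    by_cases m : j ∈ J
    · exact le_mul_of_one_le_right (hγ.2.1 j) (hR.ht_pos ⟨hR.map_mem he (hR.simple j), h j m⟩)
    · rw [hγ.2.2 j m, zero_mul])
  exact ⟨j, RS.mem_of_In (hj ▸ hγ.2.2), hj⟩

/-- double cosets -/
theorem dcw (he : e ∈ R.W) (he' : e' ∈ R.W) (h1 : ∀ j ∈ J, 0 ≤ e (R.α j))
    (h2 : ∀ k ∈ K, 0 ≤ e⁻¹ (R.α k)) (h3 : ∀ j ∈ J, 0 ≤ e' (R.α j))
    (h4 : ∀ k ∈ K, 0 ≤ e'⁻¹ (R.α k)) (hu : u ∈ R.WJ K) (hu' : u' ∈ R.WJ J) (h : e * u' = u * e') :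
    e = e' ∧ u ∈ R.WJ (Im K J e) := by
  have key : ∀ y ∈ R.WJ K, ∀ u' ∈ R.WJ J, e * u' = y⁻¹ * e' → e = e' ∧ y ∈ R.WJ (Im K J e) := by
    intro y hy
    refine hR.ind (J := K) (P := fun y => ∀ u' ∈ R.WJ J, e * u' = y⁻¹ * e' →
      e = e' ∧ y ∈ R.WJ (Im K J e)) (fun u' m c => ?_) (fun y hy k hk p ih u' m c => ?_) hy
    · rw [inv_one, one_mul] at c
      rw [← c, min_unique hR he m h1 (c ▸ h3), mul_one]
      exact ⟨rfl, one_mem _⟩
    · have r := hR.map_mem (inv_mem he) (hR.simple k)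
      have q : u'⁻¹ (e⁻¹ (R.α k)) ≤ 0 := by
        rw [← RS.mul_app, ← _root_.mul_inv_rev, c, _root_.mul_inv_rev, inv_inv, RS.mul_app,
          hR.mul_sE_α, map_neg, neg_nonpos]
        exact map_nonneg h4 p (hR.map_In hy (RS.In_α hk))
      obtain ⟨j, hj, t⟩ := simple_of hR he h1 (hR.Inv_sub (inv_mem m) ⟨r, h2 k hk, q⟩)
        (RS.app_inv _ _)
      have t' : e (R.α j) = R.α k := by rw [← t, RS.app_inv]
      obtain ⟨c1, c2⟩ := ih _ (mul_mem (RS.sE_mem hj) m) (by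
        rw [← mul_assoc, hR.conj_sE he t', mul_assoc, c, _root_.mul_inv_rev, hR.sE_inv,
          ← mul_assoc, ← mul_assoc, hR.sE_mul_self, one_mul])
      exact ⟨c1, mul_mem c2 (RS.sE_mem ⟨hk, j, hj, t'⟩)⟩
  obtain ⟨c1, c2⟩ := key _ (inv_mem hu) _ hu' (by rwa [inv_inv])
  exact ⟨c1, inv_mem_iff.1 c2⟩

variable {X : Type} {δ : X → X → R.Aut} (B : Bld R δ) {x x' y y' z z' : X} {θ : X → X}
include B

omit hR in
theorem one_l (h : δ x y = 1) (z : X) : δ x z = δ y z := by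
  rw [B.inv z x, B.inv z y, B.one z x y h]

omit hR in
theorem rs_symm (h : δ x y ∈ R.WJ J) : δ y x ∈ R.WJ J := B.inv x y ▸ inv_mem h

theorem len_symm (x y : X) : R.len (δ y x) = R.len (δ x y) := by
  rw [B.inv x y, hR.len_inv (B.mem x y)]

theorem step_l (h : δ x y = R.sE i) (z : X) :
    δ x z = R.sE i * δ y z ∨ (δ x z = δ y z ∧ (δ y z)⁻¹ (R.α i) ≤ 0) := by
  rw [B.inv z x, B.inv z y]
  rcases B.step z y x i (by rw [B.inv x y, h, hR.sE_inv]) with c | c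
  · exact .inl (by rw [c, _root_.mul_inv_rev, hR.sE_inv])
  · exact .inr ⟨by rw [c.1], by rw [inv_inv]; exact c.2⟩

theorem bind {P : X → Prop} (h1 : ∀ z, δ y z = 1 → P z) (h2 : ∀ z z', ∀ j ∈ J, δ y z ∈ R.WJ J →
    0 ≤ δ y z (R.α j) → δ z z' = R.sE j → δ y z' = δ y z * R.sE j → P z → P z')
    (h : δ y z ∈ R.WJ J) : P z :=
  hR.ind (J := J) (P := fun w => ∀ z, δ y z = w → P z) h1 (fun w hw j hj p ih z c => by
    obtain ⟨z', c1, c2⟩ := B.ext y z j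
    rw [c, hR.mul_sE_sE] at c2
    exact h2 z' z j hj (c2 ▸ hw) (c2 ▸ p) (by rw [B.inv z z', c1, hR.sE_inv]) (c2 ▸ c) (ih z' c2))
    h z rfl

theorem tr (x : X) (h : δ y z ∈ R.WJ J) : (δ x y)⁻¹ * δ x z ∈ R.WJ J :=
  bind hR B (P := fun z => (δ x y)⁻¹ * δ x z ∈ R.WJ J)
    (fun z c => by rw [B.one x y z c, inv_mul_cancel]; exact one_mem _)
    (fun z z' j hj _ _ c _ ih => by
      rcases B.step x z z' j c with t | t
      · rw [t, ← mul_assoc]; exact mul_mem ih (RS.sE_mem hj)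
      · rwa [t.1]) h

theorem rs_trans (h : δ x y ∈ R.WJ J) (h' : δ y z ∈ R.WJ J) : δ x z ∈ R.WJ J := by
  simpa using mul_mem h (tr hR B x h')

theorem add (h : R.len (δ x y * δ y z) = R.len (δ x y) + R.len (δ y z)) :
    δ x z = δ x y * δ y z :=
  bind hR B (J := Set.univ)
    (P := fun z => R.len (δ x y * δ y z) = R.len (δ x y) + R.len (δ y z) → δ x z = δ x y * δ y z)
    (fun z c _ => by rw [B.one x y z c, c, mul_one])
    (fun z z' j _ m p c c' ih t => by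
      have m' := mul_mem (B.mem x y) m
      have l1 := hR.len_mul_pos m p
      have l2 := len_mul_le hR (B.mem x y) m
      have l3 := len_mul_le hR m' (RS.sE_mem_W j)
      rw [c', ← mul_assoc] at t ⊢
      rw [hR.len_sE] at l3
      rw [← ih (by omega)]
      refine (B.step x z z' j c).resolve_right fun s => ?_
      have := hR.len_mul_neg m' (ih (by omega) ▸ s.2)
      omega) (B.mem y z) h

theorem path (x y : X) (hw : w ∈ R.W) : ∃ z, δ y z = w ∧ δ x z = δ x y * w :=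
  hR.ind (J := Set.univ) (P := fun w => ∃ z, δ y z = w ∧ δ x z = δ x y * w)
    ⟨y, B.refl y, (mul_one _).symm⟩ (fun w hw j _ p ⟨z, c1, c2⟩ => by
      obtain ⟨z', c3, c4⟩ := B.ext x z j
      refine ⟨z', c1 ▸ (B.step y z z' j c3).resolve_right fun s => ?_, by rw [c4, c2, mul_assoc]⟩
      exact hR.not_both (hR.map_mem hw (hR.simple j)) p (c1 ▸ s.2)) hw

/-- `z` is the chamber nearest to `y` in the residue of type `K` of `z` -/
def Gt (δ : X → X → R.Aut) (K : Set (Fin R.r)) (y z : X) : Prop := ∀ k ∈ K, 0 ≤ δ y z (R.α k)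

theorem gate_len (h : Gt δ K y z) (h' : δ z z' ∈ R.WJ K) :
    R.len (δ y z * δ z z') = R.len (δ y z) + R.len (δ z z') := len_red hR (B.mem y z) h h'

theorem gate (h : Gt δ K y z) (h' : δ z z' ∈ R.WJ K) : δ y z' = δ y z * δ z z' :=
  add hR B (gate_len hR B h h')

theorem gate' (h : Gt δ K y z) (h' : δ z z' ∈ R.WJ K) :
    R.len (δ y z') = R.len (δ y z) + R.len (δ z z') := by
  rw [gate hR B h h', gate_len hR B h h']

theorem ex_gate (K : Set (Fin R.r)) (x y : X) : ∃ z, δ x z ∈ R.WJ K ∧ Gt δ K y z := by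
  obtain ⟨v, -, l, h1, h2, h3, -⟩ := exists_min hR K.subset_univ (B.mem y x)
  obtain ⟨z, c1, c2⟩ := path hR B y x (inv_mem (RS.wd_mem_W l))
  exact ⟨z, c1 ▸ inv_mem (RS.wd_mem h1), fun k hk => by
    rw [c2, h3, mul_inv_cancel_right]; exact h2 k hk⟩

theorem gt_of (h : Gt δ K y z) (h' : δ z z' ∈ R.WJ K) (c : Gt δ J z' y) : Gt δ J z y :=
  fun j hj => by
    rw [B.inv y z]
    exact red_left hR (B.mem y z) h h' (by rw [← gate hR B h h', ← B.inv]; exact c j hj)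

theorem gt_min (h : ∀ z', δ z z' ∈ R.WJ K → R.len (δ y z) ≤ R.len (δ y z')) : Gt δ K y z := by
  obtain ⟨g, h1, h2⟩ := ex_gate hR B K z y
  have h3 := gate' hR B h2 (rs_symm B h1)
  have h4 := h g h1
  unfold Gt
  rwa [B.one y g z (hR.len_eq_zero (B.mem g z) (by omega))]

/-- two nearest pairs of chambers in two residues -/
theorem dc (h1 : Gt δ K y x) (h2 : Gt δ J x y) (h3 : Gt δ K y' x') (h4 : Gt δ J x' y')
    (hx : δ x x' ∈ R.WJ K) (hy : δ y y' ∈ R.WJ J) :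
    δ x y = δ x' y' ∧ δ x x' ∈ R.WJ (Im K J (δ x y)) :=
  dcw hR (B.mem _ _) (B.mem _ _) h2 (B.inv x y ▸ h1) h4 (B.inv x' y' ▸ h3) hx hy (by
    rw [← gate hR B h2 hy, B.inv y' x, gate hR B h3 (rs_symm B hx), _root_.mul_inv_rev, ← B.inv,
      ← B.inv])

omit hR B in
theorem au_gt (A : Au R δ θ π) (h : Gt δ K y z) : Gt δ (π '' K) (θ y) (θ z) := by
  rintro _ ⟨k, hk, rfl⟩
  rw [A.2, pa_conj_α]
  exact pa_nonneg.2 (h k hk)

omit B in
theorem au_rs (A : Au R δ θ π) (h' : ∀ j ∈ J, π j ∈ K) (h : δ x y ∈ R.WJ J) :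
    δ (θ x) (θ y) ∈ R.WJ K := A.2 x y ▸ pa_WJ hR A.1 h' h

end Vale.Agent.P011UBS
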