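import Vale.Agent.P011UBS.Bld

/-!
Cyclic shifts in buildings and the combinatorial part of the cyclic step.
-/

set_option autoImplicit false
set_option linter.all false

namespace Vale.Agent.P011UBS

open Matrix Vale.Agent.P183CH Vale.Agent.P011U Vale.Agent.P011UHB
open Vale.Agent.P011UC (pa)

/-- Cyclic shifts are realised if the automorphism is surjective on chambers. -/
theorem shf {R : RS} (hR : R.Ok) {X : Type} {δ : X → X → R.Aut} (B : Bld R δ) {θ : X → X}
    {π : Equiv.Perm (Fin R.r)} (A : Au R δ θ π) (hs : ∀ y, ∃ z, δ y (θ z) = 1) :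
    Sh R {w | ∃ x, Mn R δ θ x ∧ w = δ x (θ x) * pa R π} := by
  rintro _ ⟨x, hx, rfl⟩ i h
  have m := B.mem x (θ x)
  have e : R.sE i * (δ x (θ x) * pa R π) * R.sE i =
      R.sE i * δ x (θ x) * R.sE (π i) * pa R π := by rw [← pa_sE hR A.1]; group
  rw [e, len_mul_pa hR A.1, len_mul_pa hR A.1] at h
  suffices ∃ z, δ z (θ z) = R.sE i * δ x (θ x) * R.sE (π i) from
    let ⟨z, c⟩ := this; ⟨z, fun y => (c ▸ h).trans (hx y), by rw [e, c]⟩
  rcases hR.sign' (inv_mem m) (hR.simple i) with p | p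
  · rcases hR.sign' m (hR.simple (π i)) with q | q
    · refine ⟨x, ?_⟩
      have m' := mul_mem m (RS.sE_mem_W (π i))
      have l1 := hR.len_mul_pos m q
      have t := (hR.sign' (inv_mem m') (hR.simple i)).resolve_left fun c => by
        have := len_pos_mul hR m' c
        rw [← mul_assoc] at this
        omega
      rw [_root_.mul_inv_rev, hR.sE_inv, RS.mul_app] at t
      have t' := hR.eq_α_of_neg ⟨hR.map_mem (inv_mem m) (hR.simple i), p⟩ t
      rw [mul_assoc, hR.conj_sE (j := i) m (by rw [← t', RS.app_inv]), ← mul_assoc,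
        hR.sE_mul_self, one_mul]
    · obtain ⟨y, c1, c2⟩ := B.ext x (θ x) (π i)
      obtain ⟨z, c3⟩ := hs y
      rw [← B.one _ y _ c3] at c1 c2
      rw [A.2, ← pa_sE hR A.1, mul_left_inj, mul_right_inj] at c1
      refine ⟨z, ?_⟩
      rcases step_l hR B (x := z) (y := x) (by rw [B.inv x z, c1, hR.sE_inv]) (θ z) with t | t
      · rw [t, c2, mul_assoc]
      · have := hR.len_mul_neg m q
        have := hx z
        rw [t.1, c2] at this
        omega
  · obtain ⟨z, c1, c2⟩ := B.ext (θ x) x i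
    have c3 : δ z (θ x) = R.sE i * δ x (θ x) := by
      rw [B.inv, c2, _root_.mul_inv_rev, hR.sE_inv, ← B.inv]
    refine ⟨z, ?_⟩
    rcases B.step z (θ x) (θ z) (π i) (by rw [A.2, c1, pa_sE hR A.1]) with t | t
    · rw [t, c3]
    · have := len_neg_mul hR m p
      have := hx z
      rw [t.1, c3] at this
      omega

theorem cox_of (hn : HN) (bnd : BND) (eig : EIG) : COX := by
  intro R hR X δ θ π B A ⟨x₀⟩ l hl h
  have l3 : l = 3 ∨ l = 5 := hl.imp_right And.left
  have sh := shf hR B A fun y => ⟨θ^[l - 1] y, by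
    rw [← Function.iterate_succ_apply' θ, Nat.succ_eq_add_one, show l - 1 + 1 = l by omega]
    exact h y⟩
  obtain ⟨x₁, -, h1⟩ := exists_least (fun _ => True) (fun x => R.len (δ x (θ x))) ⟨x₀, trivial⟩
  have ex : ∀ w ∈ {w | ∃ x, Mn R δ θ x ∧ w = δ x (θ x) * pa R π}, Ext R w :=
    fun w ⟨x, _, e⟩ => ⟨_, B.mem _ _, π, A.1, e⟩
  obtain ⟨w, ⟨x, h2, rfl⟩, v, c, h3⟩ := hn R hR {w | ∃ x, Mn R δ θ x ∧ w = δ x (θ x) * pa R π}
    ⟨_, x₁, fun y => h1 y trivial, rfl⟩ ex sh
  rcases bnd R hR X δ θ π B A l l3 h x v c h3 with t | ⟨t, t'⟩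
  · exact ⟨x, h2, .inl t⟩
  rcases eig R hR l hl _ ex sh _ ⟨x, h2, rfl⟩ v c h3 t with s | ⟨_, ⟨y, s, rfl⟩, s'⟩
  · exact ⟨x, h2, .inr (.inr ⟨s, t' s⟩)⟩
  · exact ⟨y, s, .inr (.inl s')⟩

end Vale.Agent.P011UBS
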