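import Vale.Agent.P011UBS.Bld

/-!
The quadratic step in the building.
-/

set_option autoImplicit false
set_option linter.all false

namespace Vale.Agent.P011UBS

open Matrix Vale.Agent.P183CH Vale.Agent.P011U Vale.Agent.P011UHB Vale.Agent.P011UGL
open Vale.Agent.P011UC (pa)

variable {R : RS} {X Γ : Type} [Group Γ] {δ : X → X → R.Aut} {τ : Γ → X → X}
  {π : Γ →* Equiv.Perm (Fin R.r)} {ε : Γ →* ℤˣ} {θ : Γ} {x x' y z : X} {J K : Set (Fin R.r)}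

/-- a group acts on a building -/
structure Ac (δ : X → X → R.Aut) (τ : Γ → X → X) (π : Γ →* Equiv.Perm (Fin R.r)) : Prop where
  hR : R.Ok
  B : Bld R δ
  A : ∀ σ, Au R δ (τ σ) (π σ)
  M : ∀ σ σ' x, δ (τ σ (τ σ' x)) (τ (σ * σ') x) = 1

/-- stable residues -/
def St (δ : X → X → R.Aut) (τ : Γ → X → X) (π : Γ →* Equiv.Perm (Fin R.r)) (ε : Γ →* ℤˣ) (x : X)
    (J : Set (Fin R.r)) : Prop := ∀ σ, ε σ = 1 → Sb R δ (τ σ) (π σ) x J

/-- minimal types -/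
def Mi (δ : X → X → R.Aut) (τ : Γ → X → X) (π : Γ →* Equiv.Perm (Fin R.r)) (ε : Γ →* ℤˣ)
    (J : Set (Fin R.r)) : Prop := ∀ y J', St δ τ π ε y J' → J.ncard ≤ J'.ncard

theorem img {ρ : Equiv.Perm (Fin R.r)} (h : ∀ i, ρ i ∈ K ↔ i ∈ K) : ρ '' K = K :=
  Set.ext fun i => by rw [Set.mem_image_equiv, ← h, Equiv.apply_symm_apply]

theorem iff_of (h : ∀ σ, ε σ = 1 → ∀ i ∈ K, π σ i ∈ K) (σ : Γ) (hσ : ε σ = 1) (i : Fin R.r) :
    π σ i ∈ K ↔ i ∈ K :=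
  ⟨fun c => by simpa using h σ⁻¹ (by rw [map_inv, hσ, inv_one]) _ c, h σ hσ i⟩

theorem St.mono (h : St δ τ π ε x J) (h' : J ⊆ K) (c : ∀ σ, ε σ = 1 → ∀ i ∈ K, π σ i ∈ K) :
    St δ τ π ε x K := fun σ hσ => ⟨WJ_mono h' (h σ hσ).1, iff_of c σ hσ⟩

theorem Mi.im {e : R.Aut} (h : Mi δ τ π ε J) : Mi δ τ π ε (Im K J e) := fun y J' c =>
  (Im_card.trans (Set.ncard_le_ncard fun _ m => m.1)).trans (h y J' c)

theorem Mi.th (h : Mi δ τ π ε J) (θ : Γ) : Mi δ τ π ε (π θ '' J) := fun y J' c =>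
  (Set.ncard_image_of_injective J (π θ).injective).trans_le (h y J' c)

variable (a : Ac δ τ π)
include a

theorem St.mv (h : St δ τ π ε x J) (h' : δ x x' ∈ R.WJ J) : St δ τ π ε x' J := fun σ hσ =>
  ⟨rs_trans a.hR a.B (rs_symm a.B h') (rs_trans a.hR a.B (h σ hσ).1
    (au_rs a.hR (a.A σ) (fun j => ((h σ hσ).2 j).2) h')), (h σ hσ).2⟩

theorem St.th (h : St δ τ π ε x J) (θ : Γ) : St δ τ π ε (τ θ x) (π θ '' J) := fun σ hσ => by
  have c := h (θ⁻¹ * σ * θ) (by rw [map_mul, map_mul, hσ, mul_one, ← map_mul, inv_mul_cancel,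
    map_one])
  refine ⟨?_, fun i => ?_⟩
  · rw [← a.B.one _ _ _ (a.M σ θ x), show σ * θ = θ * (θ⁻¹ * σ * θ) by group,
      a.B.one _ _ _ (a.M θ _ x)]
    exact au_rs a.hR (a.A θ) (fun j => Set.mem_image_of_mem _) c.1
  · rw [Set.mem_image_equiv, Set.mem_image_equiv, ← c.2 ((π θ).symm i)]
    simp [Equiv.Perm.inv_def]

theorem St.pair (hx : St δ τ π ε x K) (hy : St δ τ π ε y J) (h1 : Gt δ K y x) (h2 : Gt δ J x y) :
    (∀ σ, ε σ = 1 → pa R (π σ) * δ x y * (pa R (π σ))⁻¹ = δ x y) ∧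
      St δ τ π ε x (Im K J (δ x y)) := by
  have k := fun σ hσ => dc a.hR a.B h1 h2 (img (hx σ hσ).2 ▸ au_gt (a.A σ) h1)
    (img (hy σ hσ).2 ▸ au_gt (a.A σ) h2) (hx σ hσ).1 (hy σ hσ).1
  have e : ∀ σ, ε σ = 1 → pa R (π σ) * δ x y * (pa R (π σ))⁻¹ = δ x y := fun σ hσ => by
    rw [← (a.A σ).2, ← (k σ hσ).1]
  refine ⟨e, fun σ hσ => ⟨(k σ hσ).2, iff_of (fun σ hσ i m => ?_) σ hσ⟩⟩
  obtain ⟨c, j, hj, c'⟩ := m
  exact ⟨((hx σ hσ).2 i).2 c, _, ((hy σ hσ).2 j).2 hj, by rw [← e σ hσ, pa_conj_α, c', pa_α]⟩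

theorem St.par (hx : St δ τ π ε x K) (hy : St δ τ π ε y J) (h1 : Gt δ K y x) (h2 : Gt δ J x y)
    (h : Mi δ τ π ε K) : ∀ k ∈ K, ∃ j ∈ J, δ x y (R.α j) = R.α k := fun k hk =>
  ((Set.eq_of_subset_of_ncard_le (fun _ m => m.1) (h _ _ (hx.pair a hy h1 h2).2)).ge hk).2

/-- the configurations which are compared -/
def Cf (δ : X → X → R.Aut) (τ : Γ → X → X) (π : Γ →* Equiv.Perm (Fin R.r)) (ε : Γ →* ℤˣ) (θ : Γ)
    (c : X × X × Set (Fin R.r)) : Prop :=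
  St δ τ π ε c.1 c.2.2 ∧ Mi δ τ π ε c.2.2 ∧ δ (τ θ c.1) c.2.1 ∈ R.WJ (π θ '' c.2.2)

variable (h : Cf δ τ π ε θ (x, z, J))
  (hm : ∀ c, Cf δ τ π ε θ c → R.len (δ x z) ≤ R.len (δ c.1 c.2.1))
include h hm

theorem gt1 : Gt δ J z x := gt_min a.hR a.B fun x' c => by
  rw [len_symm a.hR a.B, len_symm a.hR a.B x']
  exact hm (x', z, J) ⟨h.1.mv a c, h.2.1, rs_trans a.hR a.B
    (au_rs a.hR (a.A θ) (fun j => Set.mem_image_of_mem _) (rs_symm a.B c)) h.2.2⟩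

theorem gt2 : Gt δ (π θ '' J) x z := gt_min a.hR a.B fun z' c =>
  hm (x, z', J) ⟨h.1, h.2.1, rs_trans a.hR a.B h.2.2 c⟩

theorem orb (hθ : ε (θ * θ) = 1) (hJ : J ⊆ K) (hK : St δ τ π ε x K)
    (hL : ∀ k ∈ K, k ∈ J ∨ (δ x z)⁻¹ (R.α k) ≤ 0) : ∃ e ∈ R.W, ∃ v ∈ R.WJ K,
    ∃ v' ∈ R.WJ (π θ '' K), δ x z = v * e ∧ δ x z = e * v' ∧ (∀ k ∈ K, 0 ≤ e⁻¹ (R.α k)) ∧
      ∀ k' ∈ π θ '' K, ∃ k ∈ K, e (R.α k') = R.α k := by
  obtain ⟨hR, B, A, M⟩ := id a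
  have g1 := gt1 a h hm
  have g2 := gt2 a h hm
  obtain ⟨hx, mi, hz⟩ := h
  dsimp only at hx mi hz
  have hz' := WJ_mono (Set.image_mono hJ) hz
  have im := fun J : Set (Fin R.r) => fun j => Set.mem_image_of_mem (π θ) (x := j) (a := J)
  have jj : π θ '' (π θ '' J) = J := by
    rw [← Set.image_comp, ← Equiv.Perm.coe_mul, ← map_mul]
    exact img (hx _ hθ).2
  obtain ⟨x₁, a1, a2⟩ := ex_gate hR B K x z
  have a3 := gt_of hR B a2 (rs_symm B a1) g2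
  obtain ⟨z₁, b1, b2⟩ := ex_gate hR B (π θ '' K) z x
  have b3 := gt_of hR B b2 (rs_symm B b1) g1
  have c1 := (dc hR B (au_gt (A θ) a2) (jj ▸ au_gt (A θ) a3) b2 b3
    (rs_trans hR B (au_rs hR (A θ) (im K) (rs_symm B a1)) (rs_trans hR B hz' b1)) (by
      refine rs_trans hR B (jj ▸ au_rs hR (A θ) (im _) (rs_symm B hz)) ?_
      rw [one_l B (M θ θ x)]
      exact rs_symm B (hx _ hθ).1)).2
  have c2 := hm (x₁, z₁, Im K (π θ '' J) (δ x₁ z))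
    ⟨((hK.mv a a1).pair a ((hx.th a θ).mv a hz) a2 a3).2, (mi.th θ).im, WJ_mono (by
      rintro _ ⟨⟨k, hk, rfl⟩, j, hj, c⟩
      obtain ⟨j', hj', rfl⟩ := jj.ge hj
      rw [(A θ).2, pa_conj_α, ← pa_α] at c
      exact ⟨k, ⟨hk, j', hj', (pa R (π θ)).injective c⟩, rfl⟩) c1⟩
  dsimp only at c2
  obtain ⟨z₂, d1, d2⟩ := ex_gate hR B (π θ '' K) z x₁
  have d3 := gt_of hR B d2 (rs_symm B d1) a2
  obtain ⟨x₂, e1, e2⟩ := ex_gate hR B K x z₁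
  have e3 := gt_of hR B e2 (rs_symm B e1) b2
  have f1 := rs_trans hR B (rs_symm B d1) b1
  have f2 := (dc hR B d3 d2 e2 e3 (rs_trans hR B (rs_symm B a1) e1) f1).1
  have l1 := gate' hR B d2 f1
  have l2 := gate' hR B b2 (rs_symm B f1)
  have l3 := gate' hR B d3 (rs_symm B a1)
  have l4 := gate' hR B a2 (rs_symm B a1)
  have l5 := gate' hR B d2 (rs_symm B d1)
  have l6 := gate' hR B e2 (rs_symm B e1)
  have l7 := congrArg R.len f2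
  have s := len_symm hR B
  have := s x z; have := s x₁ z; have := s x z₁; have := s x z₂; have := s x₁ z₂
  have := s x₂ z₁; have := s z₁ z₂
  have p1 : δ x₁ z = δ x z₁ := by
    rw [B.one x₁ z₂ z (hR.len_eq_zero (B.mem _ _) (by omega)), f2,
      one_l B (x := x₂) (y := x) (hR.len_eq_zero (B.mem _ _) (by omega))]
  have p2 : ∀ k ∈ K, 0 ≤ (δ x z₁)⁻¹ (R.α k) := by rw [← p1, ← B.inv]; exact a2
  have p3 : δ x z = δ x x₁ * δ x z₁ := by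
    rw [B.inv z x, gate hR B a2 (rs_symm B a1), _root_.mul_inv_rev, ← B.inv, ← B.inv, p1]
  have p4 := (dc hR B (fun k hk => by rw [B.inv x z₁]; exact p2 k hk) b2 a2 (fun k hk => p1 ▸ b2 k hk) a1
    (rs_symm B b1)).2
  have p5 : K ⊆ Im K (π θ '' K) (δ x z₁) := fun k hk => by
    rcases hL k hk with c | c
    · exact ⟨hk, hx.par a (((hK.th a θ).mv a hz').mv a b1) b3 b2 mi k c⟩
    rcases hR.sign' (inv_mem (B.mem x x₁)) (hR.simple k) with t | t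
    · rw [p3, _root_.mul_inv_rev] at c
      exact (hR.not_both (hR.map_mem (mul_mem (inv_mem (B.mem x z₁)) (inv_mem (B.mem x x₁)))
        (hR.simple k)) (map_nonneg p2 t (hR.map_In (inv_mem a1) (RS.In_α hk))) c).elim
    · exact RS.mem_of_In (hR.Inv_sub (inv_mem p4) ⟨hR.simple k, RS.α_nonneg k, t⟩).2.2
  refine ⟨_, B.mem x z₁, _, a1, _, rs_symm B b1, p3, gate hR B b2 (rs_symm B b1), p2,
    fun k' hk => ?_⟩
  obtain ⟨-, k, c, c'⟩ := (Set.eq_of_subset_of_ncard_le (s := Im (π θ '' K) K (δ x z₁)⁻¹)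
    (fun _ m => m.1) ((Set.ncard_image_of_injective K (π θ).injective).trans_le
      ((Set.ncard_le_ncard p5).trans Im_card))).ge hk
  exact ⟨k, c, by rw [← c', RS.app_inv]⟩

omit a h hm in
theorem opb : OPB := by
  intro R hR X Γ _ δ τ π ε θ B A M hθ ⟨x₀⟩
  have a : Ac δ τ π := ⟨hR, B, A, M⟩
  have h2 : ε (θ * θ) = 1 := by rw [map_mul, hθ, neg_mul_neg, mul_one]
  obtain ⟨⟨x₁, J₁⟩, h3, h4⟩ := exists_least (fun c : X × Set (Fin R.r) => St δ τ π ε c.1 c.2)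
    (fun c => c.2.ncard) ⟨(x₀, Set.univ), fun σ _ => ⟨B.mem _ _, fun _ => Iff.rfl⟩⟩
  obtain ⟨⟨x, z, J⟩, h, hm⟩ := exists_least (Cf δ τ π ε θ) (fun c => R.len (δ c.1 c.2.1))
    ⟨(x₁, τ θ x₁, J₁), h3, fun y J' c => h4 (y, J') c, by rw [B.refl]; exact one_mem _⟩
  have g1 := gt1 a h hm
  have g2 := gt2 a h hm
  have o := fun K => orb (K := K) a h hm h2
  obtain ⟨hx, mi, hz⟩ := h
  dsimp only at hx mi hz o
  have sz := (hx.th a θ).mv a hz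
  have hu := rs_symm B hz
  have ha := gate hR B g2 hu
  have md := B.mem x z
  refine ⟨x, J, hx, mi, ?_⟩
  by_cases c : ∀ k, k ∈ J ∨ (δ x z)⁻¹ (R.α k) ≤ 0
  · have p1 := hx.par a sz g1 g2 mi
    have p2 : ∀ j' ∈ π θ '' J, ∃ j ∈ J, δ x z (R.α j') = R.α j := fun j' m =>
      let ⟨j, t, t'⟩ := sz.par a hx g2 g1 (mi.th θ) j' m
      ⟨j, t, by rw [← t', B.inv x z, RS.app_inv]⟩
    obtain ⟨w, hw⟩ := hR.exists_Lg (π θ '' J)
    have p3 : R.Lg Set.univ (δ x z * w)⁻¹ := ⟨inv_mem (mul_mem md (RS.WJ_le _ hw.1)), fun i _ => by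
      rw [_root_.mul_inv_rev, RS.mul_app, hR.Lg_inv hw]
      by_cases m : i ∈ J
      · obtain ⟨j, t, t'⟩ := p1 i m
        rw [← t', RS.inv_app]
        exact hw.2 j t
      have := (hR.pos_of_not_In hw.1 ⟨hR.neg_mem (hR.map_mem (inv_mem md) (hR.simple i)),
        neg_nonneg.2 ((c i).resolve_left m)⟩ fun t => m (RS.mem_of_In (by
          simpa [RS.app_inv] using In_map (g := δ x z) (fun j' m =>
            let ⟨j, s, s'⟩ := p2 j' m; s' ▸ RS.In_α s) t.neg))).2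
      rwa [map_neg, neg_nonneg] at this⟩
    refine .inr ⟨⟨δ x z * (w * (δ z (τ θ x))⁻¹) * (δ x z)⁻¹, conj_WJ (fun j' m => ?_)
      (mul_mem hw.1 (inv_mem hu)), ?_⟩, fun i => ?_⟩
    · obtain ⟨j, s, s'⟩ := p2 j' m
      rw [hR.conj_sE md s', mul_inv_cancel_right]
      exact RS.sE_mem s
    · rw [ha, show δ x z * (w * (δ z (τ θ x))⁻¹) * (δ x z)⁻¹ * (δ x z * δ z (τ θ x)) =
        (δ x z * w)⁻¹⁻¹ by group, hR.Lg_inv p3]
      exact p3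
    · obtain ⟨e, -, v, hv, -, -, q1, -, -, q2⟩ := o (J ∪ {j | ∃ σ, ε σ = 1 ∧ j = π σ i})
        Set.subset_union_left (hx.mono Set.subset_union_left fun σ hσ k m => m.imp
          ((hx σ hσ).2 k).2 fun ⟨σ', t, t'⟩ => ⟨σ * σ', by rw [map_mul, hσ, t, mul_one],
            by rw [t', map_mul]; rfl⟩) fun k _ => c k
      rw [ha, RS.mul_app, RS.mul_app, pa_α, q1, RS.mul_app]
      refine hR.map_In hv (In_map (J := π θ '' (J ∪ {j | ∃ σ, ε σ = 1 ∧ j = π σ i}))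
        (fun k' m => ?_) (hR.map_In (WJ_mono (Set.image_mono Set.subset_union_left) hu)
        (RS.In_α (Set.mem_image_of_mem _ (.inr ⟨1, map_one _, by rw [map_one]; rfl⟩)))))
      obtain ⟨k, s, s'⟩ := q2 k' m
      exact s' ▸ RS.In_α s
  obtain ⟨K, hK⟩ : ∃ K : Set (Fin R.r), ∀ k, k ∈ K ↔ k ∈ J ∨ (δ x z)⁻¹ (R.α k) ≤ 0 :=
    ⟨{k | k ∈ J ∨ (δ x z)⁻¹ (R.α k) ≤ 0}, fun _ => Iff.rfl⟩
  have jk : J ⊆ K := fun k m => (hK k).2 (.inl m)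
  have sk := hx.mono jk fun σ hσ k m => (hK _).2 (((hK k).1 m).imp ((hx σ hσ).2 k).2 fun t => by
    rw [← (hx.pair a sz g1 g2).1 σ hσ, _root_.mul_inv_rev, _root_.mul_inv_rev, inv_inv,
      ← mul_assoc, pa_conj_α]
    exact pa_nonpos.2 t)
  obtain ⟨e, he, v, hv, v', hv', q1, q2, q3, q4⟩ := o K jk sk fun k => (hK k).1
  obtain rfl : e = 1 := by
    by_contra t
    obtain ⟨i, -, s⟩ := hR.exists_neg (inv_mem he) (mt inv_eq_one.1 t)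
    have r := hR.map_mem (inv_mem he) (hR.simple i)
    have m : i ∉ K := fun m => hR.not_both r (q3 i m) s
    have := (hR.pos_of_not_In (inv_mem hv') ⟨hR.neg_mem r, neg_nonneg.2 s⟩ fun t =>
      m (RS.mem_of_In (by
        simpa [RS.app_inv] using In_map (g := e) (fun j' m =>
          let ⟨j, s, s'⟩ := q4 j' m; s' ▸ RS.In_α s) t.neg))).2
    rw [map_neg, neg_nonneg, ← RS.mul_app, ← _root_.mul_inv_rev, ← q2] at this
    exact m ((hK i).2 (.inr this))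
  have kk : π θ '' K ⊆ K := fun k' m => let ⟨k, s, s'⟩ := q4 k' m; RS.α_inj s' ▸ s
  have ak : δ x (τ θ x) ∈ R.WJ K := by
    rw [ha, q1, mul_one]
    exact mul_mem hv (WJ_mono ((Set.image_mono jk).trans kk) hu)
  have u : ∀ σ, ε σ = 1 ∨ ∃ η, ε η = 1 ∧ σ = η * θ := fun σ => (Int.units_eq_one_or _).imp_right
    fun t => ⟨σ * θ⁻¹, by rw [map_mul, map_inv, t, hθ, mul_inv_cancel], by group⟩
  refine .inl ⟨K, fun t => c fun k => (hK k).1 (t ▸ trivial), fun σ => ⟨?_,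
    iff_of (ε := 1) (fun σ _ k m => ?_) σ rfl⟩⟩
  · obtain t | ⟨η, t, rfl⟩ := u σ
    · exact (sk σ t).1
    · rw [B.one _ _ _ (M η θ x)]
      exact rs_trans hR B (sk η t).1 (au_rs hR (A η) (fun j => ((sk η t).2 j).2) ak)
  · obtain t | ⟨η, t, rfl⟩ := u σ
    · exact ((sk σ t).2 k).2 m
    · rw [map_mul]
      exact ((sk η t).2 _).2 (kk ⟨k, m, rfl⟩)

end Vale.Agent.P011UBS
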